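import Vale.Agent.P065.KSets

/-! Planar sets rounding injectively into an `m × m` lattice square have `O(m²)` halving lines
and `O(m²)` k-sets. -/

namespace Vale.Agent.Results.P065.LatticeRoundedLinear

open Vale.Agent.P065
open scoped Classical

/-- Linearly many k-sets and halving lines for lattice-like sets of positive density. -/
theorem result : ∀ (m : ℕ) (P : Finset (ℝ × ℝ)),
    (∀ a ∈ P, ∀ b ∈ P, ∀ z ∈ P, a ≠ b → z ≠ a → z ≠ b → crs a b z ≠ 0) →
    ∀ f : ℝ × ℝ → ℤ × ℤ, Set.InjOn f ↑P →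
    (∀ z ∈ P, 0 ≤ (f z).1 ∧ (f z).1 < m ∧ 0 ≤ (f z).2 ∧ (f z).2 < m) →
    (∀ z ∈ P, 16 * (m : ℝ) * |z.1 - (f z).1| ≤ 1 ∧ 16 * (m : ℝ) * |z.2 - (f z).2| ≤ 1) →
    ((P.offDiag.filter fun e => 2 * (leftSet P e.1 e.2).card + 2 = P.card).card : ℝ)
        ≤ 432 * (m : ℝ) ^ 2 ∧
    ∀ k : ℕ, ((kSets P k).card : ℝ) ≤ 864 * (m : ℝ) ^ 2 + 2 := by
  intro m P hg f hinj hbox hnear
  have hf : Rounds P m f := ⟨hinj, hbox, hnear⟩
  refine ⟨?_, fun k => ?_⟩
  · refine le_trans ?_ (kEdges_card_le hg hf ((P.card - 2) / 2))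
    refine Nat.cast_le.2 (Finset.card_le_card fun e he => ?_)
    simp only [Finset.mem_filter, kEdges] at he ⊢
    exact ⟨he.1, by omega⟩
  · have h := kSets_card_le (P := P) hg k
    have h' := kEdges_card_le hg hf (k - 1)
    have : ((kSets P k).card : ℝ) ≤ 2 * ((kEdges P (k - 1)).card : ℝ) + 2 := by exact_mod_cast h
    linarith

end Vale.Agent.Results.P065.LatticeRoundedLinear
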